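import Mathlib

/-!
# P022-L3, chapter G: semilinear automorphisms of a function field permute the points (helper716)

`K` is a finite Galois extension of `k(p)`; `ord τ`, `τ : T`, are discrete valuations of `K`,
trivial on `k`, with `ord τ (p - P τ) = 1`, permuted by the Galois group. Every automorphism of `K`
which fixes `p` and maps `k` to itself permutes them.
-/

open Polynomial

namespace Vale.Agent.P022.H716

/-- A discrete valuation, written additively. -/
structure IsOrd {K : Type*} [Field K] (u : K → WithTop ℤ) : Prop where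
  top : ∀ x, u x = ⊤ ↔ x = 0
  mul : ∀ x y, u (x * y) = u x + u y
  add : ∀ x y, min (u x) (u y) ≤ u (x + y)

namespace IsOrd

variable {K : Type*} [Field K] {u : K → WithTop ℤ}

theorem zero (hu : IsOrd u) : u 0 = ⊤ := (hu.top 0).2 rfl

theorem exists_int (hu : IsOrd u) {x : K} (hx : x ≠ 0) : ∃ n : ℤ, u x = n := by
  have h : u x ≠ ⊤ := fun h => hx ((hu.top x).1 h)
  exact ⟨(u x).untop h, (WithTop.coe_untop _ h).symm⟩

theorem one (hu : IsOrd u) : u 1 = 0 := by
  obtain ⟨n, hn⟩ := hu.exists_int (one_ne_zero (α := K))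
  have h := hu.mul 1 1
  rw [mul_one, hn] at h
  have h2 : n = n + n := by exact_mod_cast h
  have h3 : n = 0 := by omega
  rw [hn, h3]; rfl

theorem neg (hu : IsOrd u) (x : K) : u (-x) = u x := by
  have h1 : u (-1 : K) = 0 := by
    obtain ⟨n, hn⟩ := hu.exists_int (neg_ne_zero.2 (one_ne_zero (α := K)))
    have h := hu.mul (-1) (-1)
    rw [neg_mul_neg, mul_one, hu.one, hn] at h
    have h2 : (0 : ℤ) = n + n := by exact_mod_cast h
    have h3 : n = 0 := by omega
    rw [hn, h3]; rfl
  rw [show -x = -1 * x by ring, hu.mul, h1, zero_add]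

theorem sum (hu : IsOrd u) {ι : Type*} (s : Finset ι) (f : ι → K) (c : WithTop ℤ)
    (h : ∀ i ∈ s, c ≤ u (f i)) : c ≤ u (∑ i ∈ s, f i) := by
  classical
  induction s using Finset.induction_on with
  | empty => rw [Finset.sum_empty, hu.zero]; exact le_top
  | insert i s hi ih =>
    rw [Finset.sum_insert hi]
    exact le_trans (le_min (h i (Finset.mem_insert_self i s))
      (ih fun j hj => h j (Finset.mem_insert_of_mem hj))) (hu.add _ _)

theorem pow (hu : IsOrd u) {x : K} {n : ℤ} (hx : u x = n) (m : ℕ) :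
    u (x ^ m) = ((m * n : ℤ) : WithTop ℤ) := by
  induction m with
  | zero => simp [hu.one]
  | succ m ih =>
    rw [pow_succ, hu.mul, ih, hx, ← WithTop.coe_add]
    congr 1
    push_cast; ring

theorem inv (hu : IsOrd u) {x : K} {n : ℤ} (hx : u x = n) : u x⁻¹ = ((-n : ℤ) : WithTop ℤ) := by
  have hx0 : x ≠ 0 := fun h => by rw [h, hu.zero] at hx; exact WithTop.coe_ne_top hx.symm
  obtain ⟨m, hm⟩ := hu.exists_int (inv_ne_zero hx0)
  have h := hu.mul x x⁻¹
  rw [mul_inv_cancel₀ hx0, hu.one, hx, hm] at h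
  have h2 : (0 : ℤ) = n + m := by exact_mod_cast h
  rw [hm]; congr 1; omega

theorem zpow (hu : IsOrd u) {t : K} (ht : u t = 1) (m : ℤ) : u (t ^ m) = (m : WithTop ℤ) := by
  have ht' : u t = ((1 : ℤ) : WithTop ℤ) := ht
  rcases Int.eq_nat_or_neg m with ⟨n, rfl | rfl⟩
  · rw [zpow_natCast, hu.pow ht' n, mul_one]
  · rw [zpow_neg, zpow_natCast, hu.inv (hu.pow ht' n), mul_one]

/-- Integral elements have nonnegative order. -/
theorem nonneg_of_isIntegral (hu : IsOrd u) {A : Type*} [CommRing A] [Algebra A K]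
    (hA : ∀ a : A, 0 ≤ u (algebraMap A K a)) {x : K} (hx : IsIntegral A x) : 0 ≤ u x := by
  rcases eq_or_ne x 0 with rfl | hx0
  · rw [hu.zero]; exact le_top
  obtain ⟨m, hm⟩ := hu.exists_int hx0
  by_contra hneg
  have hm0 : m < 0 := by
    rw [hm] at hneg
    by_contra h
    exact hneg (by exact_mod_cast not_lt.1 h)
  obtain ⟨F, hF, hFx⟩ := hx
  rw [eval₂_eq_sum_range, Finset.sum_range_succ, hF.coeff_natDegree, map_one, one_mul] at hFx
  set n := F.natDegree with hn
  have h1 : x ^ n = -∑ i ∈ Finset.range n, algebraMap A K (F.coeff i) * x ^ i := by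
    linear_combination hFx
  have h2 : (((n - 1) * m : ℤ) : WithTop ℤ) ≤ u (x ^ n) := by
    rw [h1, hu.neg]
    refine hu.sum _ _ _ fun i hi => ?_
    rw [hu.mul, hu.pow hm i]
    have hi' : i < n := Finset.mem_range.1 hi
    have h3 : ((n - 1) * m : ℤ) ≤ i * m := by
      have : (i : ℤ) ≤ n - 1 := by omega
      nlinarith
    calc (((n - 1) * m : ℤ) : WithTop ℤ) ≤ ((i * m : ℤ) : WithTop ℤ) := by exact_mod_cast h3
      _ = 0 + ((i * m : ℤ) : WithTop ℤ) := (zero_add _).symm
      _ ≤ _ := by gcongr; exact hA _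
  rw [hu.pow hm n] at h2
  have h4 : ((n - 1) * m : ℤ) ≤ n * m := by exact_mod_cast h2
  nlinarith

end IsOrd

section Centre

variable {B K : Type*} [CommRing B] [IsDedekindDomain B] [Field K] [Algebra B K]
  [IsFractionRing B K]

/-- Two discrete valuations with the same centre on a Dedekind domain, equal to one at the same
element, are equal. -/
theorem eq_of_centre (v : IsDedekindDomain.HeightOneSpectrum B) {u w : K → WithTop ℤ}
    (hu : IsOrd u) (hw : IsOrd w) (hu0 : ∀ b : B, 0 ≤ u (algebraMap B K b))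
    (hw0 : ∀ b : B, 0 ≤ w (algebraMap B K b))
    (huv : ∀ b : B, 0 < u (algebraMap B K b) ↔ b ∈ v.asIdeal)
    (hwv : ∀ b : B, 0 < w (algebraMap B K b) ↔ b ∈ v.asIdeal) {t : K} (hut : u t = 1)
    (hwt : w t = 1) (x : K) : u x = w x := by
  have key : ∀ x : K, x ≠ 0 → u x = 0 → w x = 0 := by
    intro x hx hux
    have h0 : ∀ b : B, b ∉ v.asIdeal → u (algebraMap B K b) = 0 ∧ w (algebraMap B K b) = 0 :=
      fun b hb => ⟨le_antisymm (not_lt.1 fun h => hb ((huv b).1 h)) (hu0 b),
        le_antisymm (not_lt.1 fun h => hb ((hwv b).1 h)) (hw0 b)⟩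
    obtain ⟨n, d, h | h⟩ := v.exists_primeCompl_mul_eq_or_mul_eq x
    · have hd := h0 d d.2
      have h1 : u (algebraMap B K n) = 0 := by rw [← h, hu.mul, hux, hd.1, add_zero]
      have hn : n ∉ v.asIdeal := fun hn => by
        have := (huv n).2 hn
        rw [h1] at this
        exact lt_irrefl _ this
      have h2 : w x + w (algebraMap B K (d : B)) = w (algebraMap B K n) := by rw [← hw.mul, h]
      rw [hd.2, (h0 n hn).2, add_zero] at h2
      exact h2
    · have hd := h0 d d.2
      have h1 : u x + u (algebraMap B K n) = u (algebraMap B K (d : B)) := by rw [← hu.mul, h]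
      rw [hux, hd.1, zero_add] at h1
      have hn : n ∉ v.asIdeal := fun hn => by
        have := (huv n).2 hn
        rw [h1] at this
        exact lt_irrefl _ this
      have h2 : w x + w (algebraMap B K n) = w (algebraMap B K (d : B)) := by rw [← hw.mul, h]
      rw [(h0 n hn).2, hd.2, add_zero] at h2
      exact h2
  rcases eq_or_ne x 0 with rfl | hx
  · rw [hu.zero, hw.zero]
  obtain ⟨m, hm⟩ := hu.exists_int hx
  obtain ⟨m', hm'⟩ := hw.exists_int hx
  have ht0 : t ≠ 0 := fun h => by
    rw [h, hu.zero] at hut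
    exact WithTop.top_ne_one hut
  have h1 : u (x * t ^ (-m)) = 0 := by
    rw [hu.mul, hm, hu.zpow hut, ← WithTop.coe_add, add_neg_cancel]; rfl
  have h2 := key _ (mul_ne_zero hx (zpow_ne_zero _ ht0)) h1
  rw [hw.mul, hm', hw.zpow hwt, ← WithTop.coe_add] at h2
  have h3 : m' + -m = 0 := by exact_mod_cast h2
  rw [hm, hm']
  congr 1
  omega

end Centre

section Galois

variable {A K : Type*} [CommRing A] [IsDedekindDomain A] [Field K] [Algebra A K]
  [FaithfulSMul A K] {G : Type*} [Group G] [Finite G] [MulSemiringAction G K] [SMulCommClass G A K]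

/-- The centre of a valuation on the integral closure. -/
def cen {u : K → WithTop ℤ} (hu : IsOrd u) (hA : ∀ a : A, 0 ≤ u (algebraMap A K a)) :
    Ideal (integralClosure A K) where
  carrier := {b | 0 < u (b : K)}
  zero_mem' := by
    show 0 < u ((0 : integralClosure A K) : K)
    rw [show ((0 : integralClosure A K) : K) = 0 from rfl, hu.zero]
    exact WithTop.coe_lt_top 0
  add_mem' := fun {a b} ha hb => lt_of_lt_of_le (lt_min ha hb) (hu.add _ _)
  smul_mem' := fun c b hb => by
    show 0 < u ((c * b : integralClosure A K) : K)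
    rw [show ((c * b : integralClosure A K) : K) = (c : K) * (b : K) from rfl, hu.mul]
    exact lt_of_lt_of_le hb (le_add_of_nonneg_left (hu.nonneg_of_isIntegral hA c.2))

omit [IsDedekindDomain A] [FaithfulSMul A K] in
theorem mem_cen {u : K → WithTop ℤ} (hu : IsOrd u) (hA : ∀ a : A, 0 ≤ u (algebraMap A K a))
    (b : integralClosure A K) : b ∈ cen hu hA ↔ 0 < u (b : K) := Iff.rfl

omit [IsDedekindDomain A] [FaithfulSMul A K] in
theorem cen_prime {u : K → WithTop ℤ} (hu : IsOrd u) (hA : ∀ a : A, 0 ≤ u (algebraMap A K a)) :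
    (cen hu hA).IsPrime := by
  refine ⟨fun h => ?_, fun {a b} hab => ?_⟩
  · have h1 : (1 : integralClosure A K) ∈ cen hu hA := h ▸ Submodule.mem_top
    rw [mem_cen, show ((1 : integralClosure A K) : K) = 1 from rfl, hu.one] at h1
    exact lt_irrefl _ h1
  · rw [mem_cen, show ((a * b : integralClosure A K) : K) = (a : K) * (b : K) from rfl,
      hu.mul] at hab
    rw [mem_cen, mem_cen]
    by_contra hcon
    push Not at hcon
    have h1 := le_antisymm hcon.1 (hu.nonneg_of_isIntegral hA a.2)
    have h2 := le_antisymm hcon.2 (hu.nonneg_of_isIntegral hA b.2)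
    rw [h1, h2, add_zero] at hab
    exact lt_irrefl _ hab

/-- Two discrete valuations of `K` with the same centre on `A` are conjugate. -/
theorem exists_conj
    (hfix : ∀ x : K, (∀ g : G, g • x = x) → ∃ a b : A, x = algebraMap A K a / algebraMap A K b)
    {u w : K → WithTop ℤ} (hu : IsOrd u) (hw : IsOrd w) (huA : ∀ a : A, 0 ≤ u (algebraMap A K a))
    (hwA : ∀ a : A, 0 ≤ w (algebraMap A K a))
    (huw : ∀ a : A, 0 < u (algebraMap A K a) ↔ 0 < w (algebraMap A K a)) (t : A)
    (hut : u (algebraMap A K t) = 1) (hwt : w (algebraMap A K t) = 1) :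
    ∃ g : G, ∀ x, w x = u (g • x) := by
  classical
  have hinj : Function.Injective (algebraMap A K) := FaithfulSMul.algebraMap_injective A K
  -- the field of fixed points is the fraction field of `A`
  let F := FixedPoints.subfield G K
  have hmem : ∀ a : A, algebraMap A K a ∈ F := fun a g => smul_algebraMap g a
  let algAF : Algebra A F := ((algebraMap A K).codRestrict F hmem).toAlgebra
  have tow : IsScalarTower A F K := IsScalarTower.of_algebraMap_eq fun a => rfl
  have faith : FaithfulSMul A F := (faithfulSMul_iff_algebraMap_injective A F).2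
    fun a b h => hinj (congrArg Subtype.val h)
  have frac : IsFractionRing A F := by
    refine IsFractionRing.of_field A F fun z => ?_
    obtain ⟨a, b, h⟩ := hfix z z.2
    exact ⟨a, b, Subtype.ext (by rw [h]; rfl)⟩
  have : IsDedekindDomain (integralClosure A K) := integralClosure.isDedekindDomain A F K
  have : IsFractionRing (integralClosure A K) K :=
    integralClosure.isFractionRing_of_finite_extension F K
  have inv : Algebra.IsInvariant A (integralClosure A K) G := by
    refine ⟨fun b hb => ?_⟩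
    have hbF : (b : K) ∈ F := fun g => congrArg Subtype.val (hb g)
    have hint : IsIntegral A (⟨b, hbF⟩ : F) := by
      rw [← isIntegral_algebraMap_iff (B := K) (FaithfulSMul.algebraMap_injective F K)]
      exact b.2
    obtain ⟨a, ha⟩ := (IsIntegrallyClosed.isIntegral_iff).1 hint
    have h1 : algebraMap A K a = (b : K) := congrArg Subtype.val ha
    exact ⟨a, Subtype.ext h1⟩
  have := cen_prime hu huA
  have := cen_prime hw hwA
  have hunder : (cen hu huA).under A = (cen hw hwA).under A := by
    ext a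
    exact huw a
  obtain ⟨g, hg⟩ := Algebra.IsInvariant.exists_smul_of_under_eq A (integralClosure A K) G
    (cen hu huA) (cen hw hwA) hunder
  refine ⟨g⁻¹, fun x => ?_⟩
  have hu' : IsOrd fun x => u (g⁻¹ • x) :=
    ⟨fun x => by rw [hu.top, smul_eq_zero_iff_eq], fun x y => by rw [smul_mul', hu.mul],
      fun x y => by rw [smul_add]; exact hu.add _ _⟩
  have hne : cen hw hwA ≠ ⊥ := by
    intro h
    have h1 : algebraMap A (integralClosure A K) t ∈ cen hw hwA := by
      rw [mem_cen]
      show 0 < w (algebraMap A K t)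
      rw [hwt]; exact zero_lt_one
    rw [h, Ideal.mem_bot] at h1
    have h2 : algebraMap A K t = 0 := congrArg Subtype.val h1
    rw [h2, hw.zero] at hwt
    exact WithTop.top_ne_one hwt
  let v : IsDedekindDomain.HeightOneSpectrum (integralClosure A K) := ⟨cen hw hwA, inferInstance, hne⟩
  refine (eq_of_centre v hu' hw (fun b => ?_) (fun b => hw.nonneg_of_isIntegral hwA b.2)
    (fun b => ?_) (fun b => Iff.rfl) (t := algebraMap A K t) ?_ hwt x).symm
  · exact hu.nonneg_of_isIntegral huA (g⁻¹ • b).2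
  · show _ ↔ b ∈ cen hw hwA
    rw [hg, Ideal.mem_pointwise_smul_iff_inv_smul_mem]
    rfl
  · show u (g⁻¹ • algebraMap A K t) = 1
    rw [smul_algebraMap, hut]

end Galois

section Points

variable {k K : Type*} [Field k] [Field K] [Algebra k K]

/-- Polynomials in `p` have nonnegative order at `p = a`, and positive order exactly if they vanish
at `a`. -/
theorem ord_aeval {u : K → WithTop ℤ} (hu : IsOrd u)
    (hk : ∀ c : k, c ≠ 0 → u (algebraMap k K c) = 0) {p : K} {a : k}
    (hp : u (p - algebraMap k K a) = 1) (f : k[X]) :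
    0 ≤ u (aeval p f) ∧ (0 < u (aeval p f) ↔ f.eval a = 0) := by
  have hc : ∀ c : k, 0 ≤ u (algebraMap k K c) := fun c => by
    rcases eq_or_ne c 0 with rfl | h
    · rw [map_zero, hu.zero]; exact le_top
    · rw [hk c h]
  have hp0 : 0 ≤ u p := by
    have h := hu.add (p - algebraMap k K a) (algebraMap k K a)
    rw [sub_add_cancel] at h
    exact le_trans (le_min (by rw [hp]; exact zero_le_one) (hc a)) h
  have h0 : ∀ f : k[X], 0 ≤ u (aeval p f) := by
    intro f
    rw [aeval_eq_sum_range]
    refine hu.sum _ _ _ fun i hi => ?_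
    rw [Algebra.smul_def, hu.mul]
    refine add_nonneg (hc _) ?_
    clear hi
    induction i with
    | zero => rw [pow_zero, hu.one]
    | succ i ih => rw [pow_succ, hu.mul]; exact add_nonneg ih hp0
  refine ⟨h0 f, ?_⟩
  obtain ⟨q, hq⟩ : ∃ q : k[X], f = (X - C a) * q + C (f.eval a) :=
    ⟨f /ₘ (X - C a), by
      have h := f.modByMonic_add_div (X - C a)
      rw [modByMonic_X_sub_C_eq_C_eval] at h
      rw [add_comm] at h
      exact h.symm⟩
  have h1 : aeval p f = (p - algebraMap k K a) * aeval p q + algebraMap k K (f.eval a) := by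
    conv_lhs => rw [hq]
    simp
  have h2 : 1 ≤ u ((p - algebraMap k K a) * aeval p q) := by
    rw [hu.mul, hp]
    exact le_add_of_nonneg_right (h0 q)
  constructor
  · intro h
    by_contra hne
    have h3 := hk _ hne
    have h4 : algebraMap k K (f.eval a) = aeval p f + -((p - algebraMap k K a) * aeval p q) := by
      rw [h1]; ring
    have h5 := hu.add (aeval p f) (-((p - algebraMap k K a) * aeval p q))
    rw [← h4, h3, hu.neg] at h5
    exact absurd (lt_of_lt_of_le (lt_min h (lt_of_lt_of_le zero_lt_one h2)) h5) (lt_irrefl _)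
  · intro h
    rw [h1, h, map_zero, add_zero]
    exact lt_of_lt_of_le zero_lt_one h2

/-- **The row.** `K` is a finite Galois extension of `k(p)` (group `G`), `ord τ` are the orders at
the points `τ : T`, with `ord τ (p - P τ) = 1`, permuted by `G`, and every `a ∉ S` is the value of
`p` at some point. A semilinear automorphism of `K` which fixes `p` (and `S`) permutes the
points. -/
theorem points {G : Type*} [Group G] [Finite G] [MulSemiringAction G K] {T : Type*}
    (p : K) (hp : Transcendental k p) (hGk : ∀ (g : G) (c : k), g • algebraMap k K c =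
      algebraMap k K c) (hGp : ∀ g : G, g • p = p)
    (hfix : ∀ x : K, (∀ g : G, g • x = x) → x ∈ IntermediateField.adjoin k {p})
    (P : T → k) (ord : T → K → WithTop ℤ) (S : Set k)
    (hord : ∀ τ, IsOrd (ord τ)) (hk : ∀ τ (c : k), c ≠ 0 → ord τ (algebraMap k K c) = 0)
    (hP : ∀ τ, ord τ (p - algebraMap k K (P τ)) = 1) (hS : ∀ τ, P τ ∉ S)
    (hsurj : ∀ a, a ∉ S → ∃ τ, P τ = a)
    (hact : ∀ (g : G) (τ : T), ∃ τ', ∀ x, ord τ' x = ord τ (g • x))
    (σ : K ≃+* K) (σ₀ : k ≃+* k) (hσ : ∀ c, σ (algebraMap k K c) = algebraMap k K (σ₀ c))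
    (hσp : σ p = p) (hσS : ∀ a ∈ S, σ₀ a ∈ S) (τ : T) :
    ∃ τ', ∀ x, ord τ' x = ord τ (σ x) := by
  obtain ⟨τ₀, hτ₀⟩ := hsurj (σ₀.symm (P τ)) fun h => hS τ (by simpa using hσS _ h)
  let alg : Algebra k[X] K := (aeval p : k[X] →ₐ[k] K).toRingHom.toAlgebra
  have halg : ∀ f : k[X], algebraMap k[X] K f = aeval p f := fun f => rfl
  have faith : FaithfulSMul k[X] K := (faithfulSMul_iff_algebraMap_injective k[X] K).2
    (transcendental_iff_injective.1 hp)
  have hGf : ∀ (g : G) (f : k[X]), g • aeval p f = aeval p f := by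
    intro g f
    induction f using Polynomial.induction_on' with
    | add f₁ f₂ h₁ h₂ => rw [map_add, smul_add, h₁, h₂]
    | monomial n c => rw [aeval_monomial, smul_mul', hGk, smul_pow', hGp]
  have comm : SMulCommClass G k[X] K := ⟨fun g f x => by
    rw [Algebra.smul_def, Algebra.smul_def, smul_mul', halg, hGf]⟩
  have hw : IsOrd fun x => ord τ (σ x) :=
    ⟨fun x => by rw [(hord τ).top, map_eq_zero], fun x y => by rw [map_mul, (hord τ).mul],
      fun x y => by rw [map_add]; exact (hord τ).add _ _⟩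
  have hwk : ∀ c : k, c ≠ 0 → ord τ (σ (algebraMap k K c)) = 0 := fun c hc => by
    rw [hσ]; exact hk τ _ (by simpa using hc)
  have hwp : ord τ (σ (p - algebraMap k K (P τ₀))) = 1 := by
    rw [map_sub, hσp, hσ, hτ₀, RingEquiv.apply_symm_apply]; exact hP τ
  have hu2 := ord_aeval (hord τ₀) (hk τ₀) (hP τ₀)
  have hw2 := ord_aeval hw hwk hwp
  have ht : aeval p (X - C (P τ₀)) = p - algebraMap k K (P τ₀) := by simp
  obtain ⟨g, hg⟩ := exists_conj (A := k[X]) (G := G) (fun x hx => by
      obtain ⟨r, s, h⟩ := (IntermediateField.mem_adjoin_simple_iff k x).1 (hfix x hx)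
      exact ⟨r, s, h⟩) (hord τ₀) hw (fun f => (hu2 f).1) (fun f => (hw2 f).1)
    (fun f => (hu2 f).2.trans (hw2 f).2.symm) (X - C (P τ₀))
    (by rw [halg, ht]; exact hP τ₀) (by rw [halg, ht]; exact hwp)
  obtain ⟨τ', hτ'⟩ := hact g τ₀
  exact ⟨τ', fun x => by rw [hτ', ← hg]⟩

end Points

end Vale.Agent.P022.H716
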